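import Vale.Agent.P079.Reduce

namespace Vale.Agent.Results.P079.ReflexiveFPP

universe u

/-- Every reflexive real Banach space has the fixed point property for nonexpansive maps in its
given norm. -/
theorem result :
    ∀ (X : Type u) [NormedAddCommGroup X] [NormedSpace ℝ X] [CompleteSpace X],
      Function.Surjective (NormedSpace.inclusionInDoubleDual ℝ X) →
      ∀ C : Set X, C.Nonempty → IsClosed C → Bornology.IsBounded C → Convex ℝ C →
        ∀ T : X → X, Set.MapsTo T C C →
          (∀ a ∈ C, ∀ b ∈ C, ‖T a - T b‖ ≤ ‖a - b‖) → ∃ x ∈ C, T x = x := by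
  intro X _ _ _ hX C hne hcl hbd hcv T hmaps hT
  refine Vale.Agent.P079.exists_fixed_point hX hne hcl hbd hcv hmaps ?_
  exact LipschitzOnWith.of_dist_le_mul fun a ha b hb => by
    simpa [dist_eq_norm] using hT a ha b hb

end Vale.Agent.Results.P079.ReflexiveFPP
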